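import Crest.Agent.R086.NB.Defs

/-!
# Row 86, part N: a small disc recursion over ℚ for `AlgMatch` (helper95)
-/

open scoped ComplexConjugate

namespace Crest.Agent.R086.N2

open NB

/-- inversion of a disc, homogeneous form -/
theorem inv_disc {X y z : ℂ} {e : ℝ} (he : 0 ≤ e) (hD : 0 < ‖z‖ ^ 2 - e ^ 2)
    (h : ‖X - z * y‖ ≤ e * ‖y‖) :
    ‖((‖z‖ ^ 2 - e ^ 2 : ℝ) : ℂ) * y - conj z * X‖ ≤ e * ‖X‖ := by
  have h2 : ‖X - z * y‖ ^ 2 ≤ (e * ‖y‖) ^ 2 := pow_le_pow_left₀ (norm_nonneg _) h 2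
  refine le_of_sq_le_sq ?_ (by positivity)
  set D : ℝ := ‖z‖ ^ 2 - e ^ 2 with hDd
  rw [mul_pow, Complex.sq_norm, Complex.sq_norm] at h2 ⊢
  rw [Complex.sq_norm] at hDd
  simp only [Complex.normSq_apply, Complex.sub_re, Complex.sub_im, Complex.mul_re, Complex.mul_im,
    Complex.ofReal_re, Complex.ofReal_im, Complex.conj_re, Complex.conj_im] at h2 hDd ⊢
  have h3 := mul_le_mul_of_nonneg_left h2 hD.le
  have he2 : e ^ 2 = z.re * z.re + z.im * z.im - D := by linarith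
  rw [he2] at h3 ⊢
  nlinarith [h3]

/-- one step of the recursion, over the reals -/
theorem step_real {x y t A s c c' A0 s0 : ℂ} {e ds dA a n q e' : ℝ}
    (ht : t = A * x - s * y) (h : ‖t - c * y‖ ≤ e * ‖y‖) (he : 0 ≤ e)
    (hs : ‖s - s0‖ ≤ ds) (hA : ‖A - A0‖ ≤ dA) (ha : ‖A0‖ ≤ a) (hn : ‖s0 + c‖ ≤ n)
    (hD : 0 < ‖s0 + c‖ ^ 2 - (e + ds) ^ 2)
    (hq : ‖conj (s0 + c) * A0 - ((‖s0 + c‖ ^ 2 - (e + ds) ^ 2 : ℝ) : ℂ) * c'‖ ≤ q)
    (he' : (e + ds) * (a + dA) + n * dA + q ≤ e' * (‖s0 + c‖ ^ 2 - (e + ds) ^ 2)) :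
    ‖y - c' * x‖ ≤ e' * ‖x‖ := by
  have ds0 : 0 ≤ ds := (norm_nonneg _).trans hs
  have dA0 : 0 ≤ dA := (norm_nonneg _).trans hA
  have h1 : ‖A * x - (s0 + c) * y‖ ≤ (e + ds) * ‖y‖ := by
    have : A * x - (s0 + c) * y = (t - c * y) + (s - s0) * y := by rw [ht]; ring
    rw [this]
    refine (norm_add_le _ _).trans ?_
    rw [norm_mul]
    nlinarith [norm_nonneg y]
  have h2 := inv_disc (by positivity) hD h1
  set D : ℝ := ‖s0 + c‖ ^ 2 - (e + ds) ^ 2 with hDd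
  set z := s0 + c
  have hAn : ‖A‖ ≤ a + dA := by
    have : A = A0 + (A - A0) := by ring
    rw [this]
    exact (norm_add_le _ _).trans (add_le_add ha hA)
  have h3 : (D : ℂ) * (y - c' * x) =
      ((D : ℂ) * y - conj z * (A * x)) + conj z * (A - A0) * x + (conj z * A0 - D * c') * x := by ring
  have h4 : D * ‖y - c' * x‖ ≤ ((e + ds) * (a + dA) + n * dA + q) * ‖x‖ := by
    have e1 : D * ‖y - c' * x‖ = ‖(D : ℂ) * (y - c' * x)‖ := by
      rw [norm_mul, Complex.norm_real, Real.norm_of_nonneg hD.le]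
    rw [e1, h3]
    refine (norm_add₃_le).trans ?_
    rw [norm_mul A x] at h2
    have b1 : (e + ds) * (‖A‖ * ‖x‖) ≤ (e + ds) * (a + dA) * ‖x‖ := by
      rw [mul_assoc]
      gcongr
    have b2 : ‖conj z * (A - A0) * x‖ ≤ n * dA * ‖x‖ := by
      rw [norm_mul, norm_mul, Complex.norm_conj]
      have : 0 ≤ n := (norm_nonneg _).trans hn
      gcongr
    have b3 : ‖(conj z * A0 - D * c') * x‖ ≤ q * ‖x‖ := by
      rw [norm_mul]
      gcongr
    linarith
  have h5 : D * ‖y - c' * x‖ ≤ D * (e' * ‖x‖) := by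
    refine h4.trans ?_
    rw [← mul_assoc, mul_comm D]
    gcongr
  exact le_of_mul_le_mul_left h5 hD

/-! ## the rational checker -/

/-- rounding (soundness does not depend on it) -/
def rd (x : ℚ) : ℚ := mkRat (x.num * 1099511627776 / x.den) 1099511627776

/-- rounding upwards -/
def ru (x : ℚ) : ℚ := mkRat (x.num * 1099511627776 / x.den + 1) 1099511627776

/-- Newton step for an upper bound of √q -/
def nw (q n : ℚ) : ℚ := ru ((n + q / n) / 2)

/-- an upper bound of √(x²+y²) (checked) -/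
def sqU (x y : ℚ) : ℚ :=
  let q := x * x + y * y
  nw q (nw q (nw q (|x| + |y|)))

/-- a disc -/
structure St where
  cx : ℚ
  cy : ℚ
  e : ℚ

/-- from level j+1 to level j -/
def step (b0 db r0 dr : ℚ) (j : ℕ) (p : St) : Option St :=
  let J : ℚ := j
  let ax := 5 * J - J * J + b0 * b0
  let ay := b0 * (2 * J - 5)
  let dA := db * (2 * |b0| + db) + db * |2 * J - 5|
  let zx := 4 - 2 * J + p.cx
  let zy := r0 + 2 * b0 + p.cy
  let e1 := p.e + (dr + 2 * db)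
  let D := zx * zx + zy * zy - e1 * e1
  let a := sqU ax ay
  let n := sqU zx zy
  let px := zx * ax + zy * ay
  let py := zx * ay - zy * ax
  let cx := rd (px / D)
  let cy := rd (py / D)
  let N := e1 * (a + dA) + n * dA + (|px - D * cx| + |py - D * cy|)
  let e := ru (N / D)
  if 0 < D ∧ 0 ≤ a ∧ ax * ax + ay * ay ≤ a * a ∧ 0 ≤ n ∧ zx * zx + zy * zy ≤ n * n ∧ N ≤ e * D ∧ 0 ≤ e
  then some ⟨cx, cy, e⟩ else none

/-- down to level 0 -/
def go (b0 db r0 dr : ℚ) : ℕ → St → Option St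
  | 0, p => some p
  | j + 1, p => (step b0 db r0 dr j p).bind (go b0 db r0 dr j)

/-- N boxes of width 2h in ρ from lo on -/
def chk (P : St → Bool) (b0 db h : ℚ) : ℕ → ℚ → Bool
  | 0, _ => true
  | N + 1, lo => (match go b0 db (lo + h) h 19 ⟨0, 0, 17⟩ with
      | some p => P p
      | none => false) && chk P b0 db h N (lo + 2 * h)

/-- w_{j+1}/w_j lies in the disc -/
def InD (w : ℕ → ℂ) (j : ℕ) (p : St) : Prop :=
  0 ≤ p.e ∧ ‖w (j + 1) - (((p.cx : ℝ) : ℂ) + ((p.cy : ℝ) : ℂ) * Complex.I) * w j‖ ≤ (p.e : ℝ) * ‖w j‖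

theorem norm_le_of {x y a : ℝ} (ha : 0 ≤ a) (h : x * x + y * y ≤ a * a) :
    ‖(x : ℂ) + (y : ℂ) * Complex.I‖ ≤ a := by
  refine le_of_sq_le_sq ?_ ha
  rw [Complex.sq_norm, Complex.normSq_add_mul_I]
  nlinarith

theorem step_sound {b ρ : ℝ} {w : ℕ → ℂ} (hw : Seq 0 ρ (-Complex.I * b) w) {b0 db r0 dr : ℚ}
    (hb : |b - b0| ≤ db) (hr : |ρ - r0| ≤ dr) {j : ℕ} {p p' : St}
    (h : step b0 db r0 dr j p = some p') (hp : InD w (j + 1) p) : InD w j p' := by
  unfold step at h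
  simp only at h
  split_ifs at h with hc
  obtain ⟨c1, c2, c3, c4, c5, c6, c7⟩ := hc
  have hp' := Option.some.inj h
  subst hp'
  refine ⟨c7, ?_⟩
  set ax : ℚ := 5 * (j : ℚ) - (j : ℚ) * j + b0 * b0 with hax
  set ay : ℚ := b0 * (2 * (j : ℚ) - 5) with hay
  set zx : ℚ := 4 - 2 * (j : ℚ) + p.cx with hzx
  set zy : ℚ := r0 + 2 * b0 + p.cy with hzy
  set a := sqU ax ay
  set n := sqU zx zy
  set D : ℚ := zx * zx + zy * zy - (p.e + (dr + 2 * db)) * (p.e + (dr + 2 * db)) with hD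
  set cx := rd ((zx * ax + zy * ay) / D)
  set cy := rd ((zx * ay - zy * ax) / D)
  set dA : ℚ := db * (2 * |b0| + db) + db * |2 * (j : ℚ) - 5| with hdA
  set N : ℚ := (p.e + (dr + 2 * db)) * (a + dA) + n * dA +
    (|zx * ax + zy * ay - D * cx| + |zx * ay - zy * ax - D * cy|) with hN
  set e := ru (N / D)
  have db0 : (0 : ℝ) ≤ db := (abs_nonneg _).trans hb
  have hz : (((4 - 2 * (j : ℝ) : ℝ) : ℂ) + ((r0 + 2 * b0 : ℝ) : ℂ) * Complex.I) +
      (((p.cx : ℝ) : ℂ) + ((p.cy : ℝ) : ℂ) * Complex.I) =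
      (((zx : ℝ) : ℂ) + ((zy : ℝ) : ℂ) * Complex.I) := by
    rw [hzx, hzy]
    push_cast
    ring
  have hDr : ‖(((zx : ℝ) : ℂ) + ((zy : ℝ) : ℂ) * Complex.I)‖ ^ 2 -
      ((p.e : ℝ) + ((dr : ℝ) + 2 * db)) ^ 2 = (D : ℝ) := by
    rw [Complex.sq_norm, Complex.normSq_add_mul_I, hD]
    push_cast
    ring
  refine step_real (x := w j) (y := w (j + 1)) (t := w (j + 2))
    (A := AA 0 (-Complex.I * b + j)) (s := ss ρ (-Complex.I * b + j))
    (A0 := ((ax : ℝ) : ℂ) + ((ay : ℝ) : ℂ) * Complex.I)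
    (s0 := ((4 - 2 * (j : ℝ) : ℝ) : ℂ) + ((r0 + 2 * b0 : ℝ) : ℂ) * Complex.I)
    (e := p.e) (ds := (dr : ℝ) + 2 * db) (dA := dA) (a := a) (n := n)
    (q := ((|zx * ax + zy * ay - D * cx| + |zx * ay - zy * ax - D * cy| : ℚ) : ℝ))
    (hw.recu j) hp.2 (by exact_mod_cast hp.1) ?_ ?_ ?_ ?_ ?_ ?_ ?_
  · have : ss ρ (-Complex.I * b + j) -
        (((4 - 2 * (j : ℝ) : ℝ) : ℂ) + ((r0 + 2 * b0 : ℝ) : ℂ) * Complex.I) =
        (((ρ - r0) + 2 * (b - b0) : ℝ) : ℂ) * Complex.I := by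
      unfold ss
      push_cast
      ring
    rw [this, norm_mul, Complex.norm_I, mul_one, Complex.norm_real, Real.norm_eq_abs]
    refine (abs_add_le _ _).trans ?_
    rw [abs_mul, abs_two]
    linarith
  · have : AA 0 (-Complex.I * b + j) - (((ax : ℝ) : ℂ) + ((ay : ℝ) : ℂ) * Complex.I) =
        (((b - b0) * (2 * b0 + (b - b0)) : ℝ) : ℂ) +
          (((b - b0) * (2 * (j : ℝ) - 5) : ℝ) : ℂ) * Complex.I := by
      unfold AA
      rw [hax, hay]
      push_cast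
      linear_combination (-(b : ℂ) ^ 2) * Complex.I_mul_I
    rw [this]
    refine (norm_add_le _ _).trans ?_
    rw [norm_mul, Complex.norm_I, mul_one, Complex.norm_real, Complex.norm_real, Real.norm_eq_abs,
      Real.norm_eq_abs, abs_mul, abs_mul, hdA]
    push_cast
    have : |2 * (b0 : ℝ) + (b - b0)| ≤ 2 * |(b0 : ℝ)| + db := by
      refine (abs_add_le _ _).trans ?_
      rw [abs_mul, abs_two]
      linarith
    gcongr
  · exact norm_le_of (by exact_mod_cast c2) (by exact_mod_cast c3)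
  · rw [hz]
    exact norm_le_of (by exact_mod_cast c4) (by exact_mod_cast c5)
  · rw [hz, hDr]
    exact_mod_cast c1
  · rw [hz, hDr]
    refine (Complex.norm_le_abs_re_add_abs_im _).trans (le_of_eq ?_)
    push_cast
    congr 2
    · simp
    · simp
      ring
  · rw [hz, hDr]
    have : (N : ℝ) ≤ e * D := by exact_mod_cast c6
    rw [hN] at this
    push_cast at this ⊢
    exact this

theorem go_sound {b ρ : ℝ} {w : ℕ → ℂ} (hw : Seq 0 ρ (-Complex.I * b) w) {b0 db r0 dr : ℚ}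
    (hb : |b - b0| ≤ db) (hr : |ρ - r0| ≤ dr) :
    ∀ (j : ℕ) (p p' : St), go b0 db r0 dr j p = some p' → InD w j p → InD w 0 p'
  | 0, p, p', h, hp => by
      have := Option.some.inj h
      subst this
      exact hp
  | j + 1, p, p', h, hp => by
      unfold go at h
      obtain ⟨q, hq, hq'⟩ := Option.bind_eq_some_iff.mp h
      exact go_sound hw hb hr j q p' hq' (step_sound hw hb hr hq hp)

/-- the start: |w₂₀| ≤ 17 |w₁₉| -/
theorem start {b ρ : ℝ} {w : ℕ → ℂ} (hw : Seq 0 ρ (-Complex.I * b) w) (hb : |b| ≤ 1) :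
    InD w 19 ⟨0, 0, 17⟩ := by
  refine ⟨by norm_num, ?_⟩
  have h1 := hw.neg 20 (by simp; norm_num)
  have h2 := hw.recu 19
  norm_num at h1 h2 ⊢
  have hA : ‖AA 0 (-(Complex.I * b) + 19)‖ ≤ 280 := by
    have : AA 0 (-(Complex.I * b) + 19) = ((b ^ 2 - 266 : ℝ) : ℂ) + ((33 * b : ℝ) : ℂ) * Complex.I := by
      unfold AA
      push_cast
      linear_combination (-(b : ℂ) ^ 2) * Complex.I_mul_I
    rw [this]
    have hb2 : b ^ 2 ≤ 1 := by
      rw [← sq_abs]
      nlinarith [abs_nonneg b]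
    exact norm_le_of (by norm_num) (by nlinarith [sq_nonneg b])
  have h3 : (conj (w 20) * w 21).re =
      (conj (w 20) * (AA 0 (-(Complex.I * b) + 19) * w 19)).re + 34 * ‖w 20‖ ^ 2 := by
    rw [h2, Complex.sq_norm]
    unfold ss
    simp [Complex.normSq_apply]
    ring
  have h4 : |(conj (w 20) * (AA 0 (-(Complex.I * b) + 19) * w 19)).re| ≤ ‖w 20‖ * (280 * ‖w 19‖) := by
    refine (Complex.abs_re_le_norm _).trans ?_
    rw [norm_mul, norm_mul, Complex.norm_conj]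
    gcongr
  have h5 : (conj (w 20) * w 21).re ≤ (20 - 5 / 2) * ‖w 20‖ ^ 2 := by
    simp only [Complex.mul_re, Complex.conj_re, Complex.conj_im]
    linarith
  have h6 := neg_abs_le (conj (w 20) * (AA 0 (-(Complex.I * b) + 19) * w 19)).re
  by_contra hn
  push Not at hn
  have : 0 < ‖w 20‖ := lt_of_le_of_lt (by positivity) hn
  nlinarith [norm_nonneg (w 19)]

theorem chk_sound {b ρ : ℝ} {w : ℕ → ℂ} (hw : Seq 0 ρ (-Complex.I * b) w) (hb1 : |b| ≤ 1)
    {P : St → Bool} {b0 db h : ℚ} (hb : |b - b0| ≤ db) :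
    ∀ (N : ℕ) (lo : ℚ), chk P b0 db h N lo = true → (lo : ℝ) ≤ ρ → ρ < lo + 2 * h * N →
      ∃ p, P p = true ∧ InD w 0 p
  | 0, lo, _, h1, h2 => by
      simp at h2
      linarith
  | N + 1, lo, hc, h1, h2 => by
      unfold chk at hc
      rw [Bool.and_eq_true] at hc
      by_cases hρ : ρ ≤ lo + 2 * h
      · obtain ⟨hc, -⟩ := hc
        split at hc
        · rename_i p hp
          refine ⟨p, hc, go_sound hw hb ?_ 19 _ p hp (start hw hb1)⟩
          push_cast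
          rw [abs_le]
          constructor <;> linarith
        · exact absurd hc (by simp)
      · refine chk_sound hw hb1 hb N _ hc.2 ?_ ?_
        · push_cast
          linarith
        · push_cast at h2 ⊢
          linarith

end Crest.Agent.R086.N2
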