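import Crest.Agent.R086.N2.Eng
import Crest.Agent.R086.NB.RedM

/-!
# Row 86, part N: `AlgMatch` and `MatchStmt` (helper95)
-/

open scoped ComplexConjugate

namespace Crest.Agent.R086.N2

open NB

theorem c0 : chk (fun p => decide (|p.cx| + |p.cy + 334776 / 10 ^ 6| + p.e ≤ 9 / 10 ^ 4))
    (334776 / 10 ^ 6) (1 / 10 ^ 5) (1 / 10 ^ 4) 1 (2704972 / 10 ^ 6) = true := by
  decide +kernel

theorem c1 : chk (fun p => decide (2 / 10 ^ 6 ≤ p.cx - p.e))
    (334771 / 10 ^ 6) (5 / 10 ^ 6) (1 / 10 ^ 5) 1 (2704972 / 10 ^ 6) = true := by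
  decide +kernel

theorem c2 : chk (fun p => decide (2 / 10 ^ 6 ≤ p.cx - p.e))
    (334781 / 10 ^ 6) (5 / 10 ^ 6) (1 / 10 ^ 5) 1 (2704972 / 10 ^ 6) = true := by
  decide +kernel

theorem c3 : chk (fun p => decide (p.cx + p.e ≤ -(2 / 10 ^ 6)))
    (334771 / 10 ^ 6) (5 / 10 ^ 6) (1 / 10 ^ 5) 1 (2705152 / 10 ^ 6) = true := by
  decide +kernel

theorem c4 : chk (fun p => decide (p.cx + p.e ≤ -(2 / 10 ^ 6)))
    (334781 / 10 ^ 6) (5 / 10 ^ 6) (1 / 10 ^ 5) 1 (2705152 / 10 ^ 6) = true := by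
  decide +kernel

theorem c5 : chk (fun p => decide (2 / 10 ^ 7 ≤ p.cy - p.e + 334766 / 10 ^ 6))
    (334766 / 10 ^ 6) 0 (25 / 10 ^ 7) 40 (2704972 / 10 ^ 6) = true := by
  decide +kernel

theorem c6 : chk (fun p => decide (p.cy + p.e + 334786 / 10 ^ 6 ≤ -(2 / 10 ^ 7)))
    (334786 / 10 ^ 6) 0 (25 / 10 ^ 7) 40 (2704972 / 10 ^ 6) = true := by
  decide +kernel

theorem InD.div {w : ℕ → ℂ} {p : St} (h : InD w 0 p) (h0 : w 0 ≠ 0) :
    ‖w 1 / w 0 - (((p.cx : ℝ) : ℂ) + ((p.cy : ℝ) : ℂ) * Complex.I)‖ ≤ (p.e : ℝ) := by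
  have h1 := h.2
  have hn : 0 < ‖w 0‖ := norm_pos_iff.mpr h0
  have : w 1 / w 0 - (((p.cx : ℝ) : ℂ) + ((p.cy : ℝ) : ℂ) * Complex.I) =
      (w (0 + 1) - (((p.cx : ℝ) : ℂ) + ((p.cy : ℝ) : ℂ) * Complex.I) * w 0) / w 0 := by
    field_simp
  rw [this, norm_div, div_le_iff₀ hn]
  exact h1

theorem InD.re {w : ℕ → ℂ} {p : St} (h : InD w 0 p) (h0 : w 0 ≠ 0) :
    |(w 1 / w 0).re - p.cx| ≤ (p.e : ℝ) := by
  refine le_trans (le_of_eq ?_) ((Complex.abs_re_le_norm _).trans (h.div h0))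
  simp

theorem InD.im {w : ℕ → ℂ} {p : St} (h : InD w 0 p) (h0 : w 0 ≠ 0) :
    |(w 1 / w 0).im - p.cy| ≤ (p.e : ℝ) := by
  refine le_trans (le_of_eq ?_) ((Complex.abs_im_le_norm _).trans (h.div h0))
  simp

theorem algMatch : AlgMatch := by
  intro b r w hb hr hw hne
  obtain ⟨b1, b2⟩ := hb
  obtain ⟨r1, r2⟩ := hr
  have hb1 : |b| ≤ 1 := by
    rw [abs_le]
    constructor <;> linarith
  have ρ1 : (2704972 / 10 ^ 6 : ℝ) ≤ r ^ 2 / 4 := by nlinarith
  have ρ2 : r ^ 2 / 4 < (2705171 / 10 ^ 6 : ℝ) := by nlinarith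
  obtain ⟨p, hp, hd⟩ := chk_sound hw hb1 (by
    push_cast
    rw [abs_le]
    constructor <;> linarith) _ _ c0 (by push_cast; linarith) (by push_cast; linarith)
  have h0 : w 0 ≠ 0 := by
    intro h0
    have := hd.2
    rw [h0] at this
    simp at this
    rcases hne with h | h
    · exact h h0
    · exact h this
  refine ⟨h0, ?_, fun hr' => ?_, fun hr' => ?_, fun hb' => ?_, fun hb' => ?_⟩
  · have hp' : |(p.cx : ℝ)| + |(p.cy : ℝ) + 334776 / 10 ^ 6| + p.e ≤ 9 / 10 ^ 4 := by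
      have := (Rat.cast_le (K := ℝ)).mpr (of_decide_eq_true hp)
      push_cast at this
      exact this
    have e : w 1 / w 0 + Complex.I * b =
        (w 1 / w 0 - (((p.cx : ℝ) : ℂ) + ((p.cy : ℝ) : ℂ) * Complex.I)) +
          (((p.cx : ℝ) : ℂ) + ((p.cy + b : ℝ) : ℂ) * Complex.I) := by
      push_cast
      ring
    rw [e]
    refine (norm_add_le _ _).trans ?_
    have h1 := hd.div h0
    have h2 : ‖((p.cx : ℝ) : ℂ) + ((p.cy + b : ℝ) : ℂ) * Complex.I‖ ≤ |(p.cx : ℝ)| + |p.cy + b| := by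
      refine (norm_add_le _ _).trans (le_of_eq ?_)
      rw [norm_mul, Complex.norm_I, mul_one, Complex.norm_real, Complex.norm_real, Real.norm_eq_abs,
        Real.norm_eq_abs]
    have h3 : |(p.cy : ℝ) + b| ≤ |(p.cy : ℝ) + 334776 / 10 ^ 6| + 1 / 10 ^ 5 := by
      rw [abs_le]
      constructor
      · linarith [neg_abs_le ((p.cy : ℝ) + 334776 / 10 ^ 6)]
      · linarith [le_abs_self ((p.cy : ℝ) + 334776 / 10 ^ 6)]
    linarith
  · have ρ3 : r ^ 2 / 4 < (2704990 / 10 ^ 6 : ℝ) := by nlinarith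
    have : ∃ p : St, decide (2 / 10 ^ 6 ≤ p.cx - p.e) = true ∧ InD w 0 p := by
      by_cases hb' : b ≤ 334776 / 10 ^ 6
      · exact chk_sound hw hb1 (by
          push_cast
          rw [abs_le]
          constructor <;> linarith) _ _ c1 (by push_cast; linarith) (by push_cast; linarith)
      · exact chk_sound hw hb1 (by
          push_cast
          rw [abs_le]
          constructor <;> linarith) _ _ c2 (by push_cast; linarith) (by push_cast; linarith)
    obtain ⟨p, hp, hd⟩ := this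
    have hp' : (2 / 10 ^ 6 : ℝ) ≤ p.cx - p.e := by
      have := (Rat.cast_le (K := ℝ)).mpr (of_decide_eq_true hp)
      push_cast at this
      exact this
    linarith [(abs_le.mp (hd.re h0)).1]
  · have ρ3 : (2705152 / 10 ^ 6 : ℝ) ≤ r ^ 2 / 4 := by nlinarith
    have : ∃ p : St, decide (p.cx + p.e ≤ -(2 / 10 ^ 6)) = true ∧ InD w 0 p := by
      by_cases hb' : b ≤ 334776 / 10 ^ 6
      · exact chk_sound hw hb1 (by
          push_cast
          rw [abs_le]
          constructor <;> linarith) _ _ c3 (by push_cast; linarith) (by push_cast; linarith)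
      · exact chk_sound hw hb1 (by
          push_cast
          rw [abs_le]
          constructor <;> linarith) _ _ c4 (by push_cast; linarith) (by push_cast; linarith)
    obtain ⟨p, hp, hd⟩ := this
    have hp' : (p.cx : ℝ) + p.e ≤ -(2 / 10 ^ 6) := by
      have := (Rat.cast_le (K := ℝ)).mpr (of_decide_eq_true hp)
      push_cast at this
      exact this
    linarith [(abs_le.mp (hd.re h0)).2]
  · obtain ⟨p, hp, hd⟩ := chk_sound hw hb1 (by
      rw [hb']
      norm_num) _ _ c5 (by push_cast; linarith) (by push_cast; linarith)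
    have hp' : (2 / 10 ^ 7 : ℝ) ≤ p.cy - p.e + 334766 / 10 ^ 6 := by
      have := (Rat.cast_le (K := ℝ)).mpr (of_decide_eq_true hp)
      push_cast at this
      exact this
    linarith [(abs_le.mp (hd.im h0)).1]
  · obtain ⟨p, hp, hd⟩ := chk_sound hw hb1 (by
      rw [hb']
      norm_num) _ _ c6 (by push_cast; linarith) (by push_cast; linarith)
    have hp' : (p.cy : ℝ) + p.e + 334786 / 10 ^ 6 ≤ -(2 / 10 ^ 7) := by
      have := (Rat.cast_le (K := ℝ)).mpr (of_decide_eq_true hp)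
      push_cast at this
      exact this
    linarith [(abs_le.mp (hd.im h0)).2]

theorem matchStmt : MatchStmt := match_of algMatch

end Crest.Agent.R086.N2
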